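import Vale.Agent.P269.H316.Main

namespace Vale.Agent.Results.P269.VirasoroTargets

open Vale.Agent.P269 Finset

/-- Virasoro constraints.

(A) Complete intersections `X` of dimension at least three in projective space (`CI2.Data`): if
`∑ ds ≥ N + 1` all constraints hold; in general they hold in genus zero and whenever the virtual
dimension is nonpositive, they are equivalent to the single operator `L_V` if the virtual dimension
is `V ≥ 0`, and to a finite list of scalar identities.

(B) Arbitrary smooth projective varieties `X` of any dimension with `H^1(X) = 0` and any monoid of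
curve classes (`H316.Target`), in particular complete intersection surfaces: the same; all
constraints hold if `X` has dimension at least three and `K_X` is nef. -/
theorem result :
    (∀ {n : ℕ} (X : CI2.Data n) (G : CI2.GW X),
      (X.N + 1 ≤ X.ds.sum → ∀ K g d l, G.vir K g d l = 0) ∧
      ∀ g d, (g = 0 ∨ X.vdim g d ≤ 0 → ∀ K l, G.vir K g d l = 0) ∧
        (∀ V : ℕ, X.vdim g d = V →
          ((∀ K l, G.vir K g d l = 0) ↔ ∀ l, G.vir (V + 1) g d l = 0)) ∧
        (X.reducedSet g d).Finite ∧
        ((∀ K l, G.vir K g d l = 0) ↔ ∀ s ∈ X.reducedSet g d, G.vir (s.1 + 1) g d s.2 = 0)) ∧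
    (∀ {n : ℕ} {B : Type} [AddCommMonoid B] [DecidableEq B] [HasAntidiagonal B]
      (X : H316.Target n B) (G : H316.GW X),
      (3 ≤ X.r → (∀ β, X.c β ≤ 0) → ∀ K g β l, G.vir K g β l = 0) ∧
      ∀ g β, (g = 0 ∨ X.vdim g β ≤ 0 → ∀ K l, G.vir K g β l = 0) ∧
        (∀ V : ℕ, X.vdim g β = V →
          ((∀ K l, G.vir K g β l = 0) ↔ ∀ l, G.vir (V + 1) g β l = 0)) ∧
        (X.reducedSet g β).Finite ∧
        ((∀ a, X.p a + X.q a = 2 → X.p a = 1 ∧ X.q a = 1) →
          ((∀ K l, G.vir K g β l = 0) ↔
            ∀ s ∈ X.reducedSet g β, G.vir (s.1 + 1) g β s.2 = 0))) :=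
  ⟨fun X G => ⟨G.vir_nef, fun g d => ⟨fun h K l => h.elim (fun h0 => h0 ▸ G.vir_genus_zero K d l)
      fun h1 => G.vir_of_vdim_le g d h1 K l, G.vir_single g d, X.reducedSet_finite g d,
      G.vir_reduced g d⟩⟩,
    fun X G => ⟨fun h3 hc K g β l => G.vir_nef h3 hc K g β l, fun g β =>
      ⟨fun h K l => h.elim (fun h0 => h0 ▸ G.vir_genus_zero K β l)
        fun h1 => G.vir_of_vdim_le g β h1 K l, G.vir_single g β, X.reducedSet_finite g β,
        fun h2 => G.vir_reduced h2 g β⟩⟩⟩

end Vale.Agent.Results.P269.VirasoroTargets
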